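import Mathlib
import Vale.Agent.Lib.Helper1.Moat

namespace Vale.Agent.Results.P015.LineStrip

/-- Gaussian moat problem, strips around arbitrary lines: for every real line
`{w + t v : t real}` in the complex plane (any base point `w`, any direction `v ≠ 0`, rational
or irrational slope), every width `R` and every step bound `D`, there is no infinite sequence of
pairwise distinct Gaussian primes whose successive Euclidean distances are at most `D` and all
of whose terms lie within distance `R` of the line. -/
theorem result (w v : ℂ) (hv : v ≠ 0) (R D : ℝ) :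
    ¬ ∃ z : ℕ → GaussianInt, Function.Injective z ∧ (∀ n, Irreducible (z n)) ∧
      (∀ n, ‖GaussianInt.toComplex (z (n + 1)) - GaussianInt.toComplex (z n)‖ ≤ D) ∧
      (∀ n, ∃ t : ℝ, ‖GaussianInt.toComplex (z n) - (w + (t : ℂ) * v)‖ ≤ R) := by
  rintro ⟨z, hinj, hirr, hstep, hstrip⟩
  exact Vale.Agent.Lib.Helper1.Moat.no_walk_near_line w v hv R D z hinj
    (fun n => (hirr n).prime) hstep hstrip

end Vale.Agent.Results.P015.LineStrip
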