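import Mathlib
import Vale.Agent.Lib.Helper1.MoatUnif

namespace Vale.Agent.Results.P015.UniformStrip

/-- Gaussian moat problem, uniform strip theorem. For every step bound `D` and every width `R`
there is a single constant `L`, independent of the line, such that: whenever a sequence of
Gaussian primes, all of absolute value at least `L`, has successive Euclidean distances at most
`D` and stays within distance `R` of some real line `{w + t v : t real}` of the complex plane
(any base point, any direction), then any two of its terms are at distance at most `L`.
So outside the disc of radius `L` a walk with steps at most `D` cannot travel farther than `L`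
while staying `R`-close to any straight line. -/
theorem result (D R : ℝ) :
    ∃ L : ℝ, ∀ (w v : ℂ), v ≠ 0 → ∀ z : ℕ → GaussianInt, (∀ n, Irreducible (z n)) →
      (∀ n, L ≤ ‖GaussianInt.toComplex (z n)‖) →
      (∀ n, ‖GaussianInt.toComplex (z (n + 1)) - GaussianInt.toComplex (z n)‖ ≤ D) →
      (∀ n, ∃ t : ℝ, ‖GaussianInt.toComplex (z n) - (w + (t : ℂ) * v)‖ ≤ R) →
      ∀ i j, ‖GaussianInt.toComplex (z i) - GaussianInt.toComplex (z j)‖ ≤ L := by
  obtain ⟨L, hL⟩ := Vale.Agent.Lib.Helper1.Moat.bounded_walk D R
  exact ⟨L, fun w v hv z hirr hfar hstep hstrip =>
    hL w v hv z (fun n => (hirr n).prime) hfar hstep hstrip⟩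

end Vale.Agent.Results.P015.UniformStrip
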