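import Mathlib
import Vale.Agent.Lib.Helper1.MoatGrow

namespace Vale.Agent.Results.P015.WideningStrip

/-- Gaussian moat problem, widening strips. There is a nondecreasing function `f` on the reals
with `f x → ∞` as `x → ∞` such that, for every real line `{w + t v : t real}` of the complex
plane and every step bound `D`, there is no infinite sequence of pairwise distinct Gaussian
primes with successive Euclidean distances at most `D` in which every term `z` lies within
distance `f (|z|)` of the line. The same `f` works for all lines and all `D`. -/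
theorem result :
    ∃ f : ℝ → ℝ, Monotone f ∧ Filter.Tendsto f Filter.atTop Filter.atTop ∧
      ∀ (w v : ℂ), v ≠ 0 → ∀ D : ℝ,
        ¬ ∃ z : ℕ → GaussianInt, Function.Injective z ∧ (∀ n, Irreducible (z n)) ∧
          (∀ n, ‖GaussianInt.toComplex (z (n + 1)) - GaussianInt.toComplex (z n)‖ ≤ D) ∧
          (∀ n, ∃ t : ℝ, ‖GaussianInt.toComplex (z n) - (w + (t : ℂ) * v)‖
            ≤ f ‖GaussianInt.toComplex (z n)‖) := by
  obtain ⟨f, hmono, htend, hf⟩ := Vale.Agent.Lib.Helper1.Moat.no_walk_growing
  refine ⟨f, hmono, htend, ?_⟩
  rintro w v hv D ⟨z, hinj, hirr, hstep, hstrip⟩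
  exact hf w v hv D z hinj (fun n => (hirr n).prime) hstep hstrip

end Vale.Agent.Results.P015.WideningStrip
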